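import Mathlib

/-!
# An inequality for submodular functions on families of sets

`key`: for families `P a ⊆ Q a` which are optimal row by row and column by column, the total
increase of a submodular function from `P` to `Q` is at most the total increase from the
intersections of the `P z` (`z ∈ Nm a`) to the intersections of the `Q z`.
-/

namespace Vale.Agent.P038.H675

open Finset

variable {V : Type*} [Fintype V] [DecidableEq V]

/-- The minimum of `c` over the sets between `Y` and `K` (for `Y ⊆ K`). -/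
noncomputable def mn (c : Finset V → ℤ) (K Y : Finset V) : ℤ :=
  (univ : Finset (Finset V)).inf' univ_nonempty fun Z => c ((Y ∪ Z) ∩ K)

theorem mn_le (c : Finset V → ℤ) {K Y Z : Finset V} (h1 : Y ⊆ Z) (h2 : Z ⊆ K) :
    mn c K Y ≤ c Z := by
  have h := Finset.inf'_le (fun Z => c ((Y ∪ Z) ∩ K)) (mem_univ Z)
  have e : (Y ∪ Z) ∩ K = Z := by
    rw [Finset.union_eq_right.2 h1, Finset.inter_eq_left.2 h2]
  have h' : mn c K Y ≤ c ((Y ∪ Z) ∩ K) := h
  rwa [e] at h'

theorem exists_mn (c : Finset V → ℤ) {K Y : Finset V} (h : Y ⊆ K) :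
    ∃ Z, Y ⊆ Z ∧ Z ⊆ K ∧ c Z = mn c K Y := by
  obtain ⟨Z, -, hZ⟩ := Finset.exists_mem_eq_inf' (univ_nonempty (α := Finset V))
    (fun Z : Finset V => c ((Y ∪ Z) ∩ K))
  exact ⟨(Y ∪ Z) ∩ K, subset_inter subset_union_left h, inter_subset_right, hZ.symm⟩

theorem mn_mono (c : Finset V → ℤ) {K Y Y' : Finset V} (h : Y ⊆ Y') (h' : Y' ⊆ K) :
    mn c K Y ≤ mn c K Y' := by
  obtain ⟨Z, h1, h2, h3⟩ := exists_mn c h'
  rw [← h3]
  exact mn_le c (h.trans h1) h2

theorem mn_self (c : Finset V → ℤ) (K : Finset V) : mn c K K = c K := by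
  obtain ⟨Z, h1, h2, h3⟩ := exists_mn c (Subset.refl K)
  rw [← h3, Subset.antisymm h2 h1]

theorem mn_eq (c : Finset V → ℤ) {K Y : Finset V} (h : Y ⊆ K)
    (hR : ∀ Z, Y ⊆ Z → Z ⊆ K → c Y ≤ c Z) : mn c K Y = c Y := by
  obtain ⟨Z, h1, h2, h3⟩ := exists_mn c h
  apply le_antisymm (mn_le c (Subset.refl Y) h)
  rw [← h3]
  exact hR Z h1 h2

theorem mn_marg {c : Finset V → ℤ} (hc : ∀ S T, c (S ∩ T) + c (S ∪ T) ≤ c S + c T)
    {K' K X Y : Finset V} {b : V} (hK : K' ⊆ K) (hX : X ⊆ K') (hXY : X ⊆ Y) (hY : Y ⊆ K)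
    (hb : b ∈ K') :
    mn c K (insert b Y) - mn c K Y ≤ mn c K' (insert b X) - mn c K' X := by
  obtain ⟨Z', h1, h2, h3⟩ := exists_mn c (insert_subset hb hX)
  obtain ⟨Z, k1, k2, k3⟩ := exists_mn c hY
  have h := hc Z' Z
  have a1 : mn c K' X ≤ c (Z' ∩ Z) :=
    mn_le c (subset_inter ((subset_insert _ _).trans h1) (hXY.trans k1))
      (inter_subset_left.trans h2)
  have a2 : mn c K (insert b Y) ≤ c (Z' ∪ Z) :=
    mn_le c (insert_subset (mem_union_left _ (h1 (mem_insert_self _ _)))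
      (k1.trans subset_union_right)) (union_subset (h2.trans hK) k2)
  linarith

/-- The first `k` vertices in a fixed enumeration. -/
noncomputable def lo (k : ℕ) : Finset V :=
  univ.filter fun v => ((Fintype.equivFin V v : Fin _) : ℕ) < k

/-- `P` together with the part of `K` in the first `k` vertices. -/
noncomputable def st (K P : Finset V) (k : ℕ) : Finset V := P ∪ (K ∩ lo k)

theorem mem_st {K P : Finset V} {k : ℕ} {v : V} :
    v ∈ st K P k ↔ v ∈ P ∨ (v ∈ K ∧ ((Fintype.equivFin V v : Fin _) : ℕ) < k) := by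
  simp [st, lo]

/-- The index of a vertex in the fixed enumeration. -/
noncomputable def ix (b : V) : ℕ := ((Fintype.equivFin V b : Fin _) : ℕ)

theorem mem_st' {K P : Finset V} {k : ℕ} {v : V} :
    v ∈ st K P k ↔ v ∈ P ∨ (v ∈ K ∧ ix v < k) := mem_st

theorem ix_inj {a b : V} (h : ix a = ix b) : a = b := by
  unfold ix at h
  exact (Fintype.equivFin V).injective (Fin.ext h)

theorem st_succ_mem {K P : Finset V} {b : V} (hb : b ∈ K) :
    st K P (ix b + 1) = insert b (st K P (ix b)) := by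
  ext v
  rw [mem_insert, mem_st', mem_st']
  constructor
  · rintro (h | ⟨h1, h2⟩)
    · exact Or.inr (Or.inl h)
    · rcases Nat.lt_succ_iff_lt_or_eq.1 h2 with h | h
      · exact Or.inr (Or.inr ⟨h1, h⟩)
      · exact Or.inl (ix_inj h)
  · rintro (h | h | ⟨h1, h2⟩)
    · subst h
      exact Or.inr ⟨hb, Nat.lt_succ_self _⟩
    · exact Or.inl h
    · exact Or.inr ⟨h1, Nat.lt_succ_of_lt h2⟩

theorem st_succ_not {K P : Finset V} {b : V} (hb : b ∉ K ∨ b ∈ P) :
    st K P (ix b + 1) = st K P (ix b) := by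
  ext v
  rw [mem_st', mem_st']
  constructor
  · rintro (h | ⟨h1, h2⟩)
    · exact Or.inl h
    · rcases Nat.lt_succ_iff_lt_or_eq.1 h2 with h | h
      · exact Or.inr ⟨h1, h⟩
      · have := ix_inj h
        subst this
        rcases hb with hb | hb
        · exact absurd h1 hb
        · exact Or.inl hb
  · rintro (h | ⟨h1, h2⟩)
    · exact Or.inl h
    · exact Or.inr ⟨h1, Nat.lt_succ_of_lt h2⟩

theorem st_subset {K P : Finset V} (h : P ⊆ K) (k : ℕ) : st K P k ⊆ K := by
  intro v hv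
  rcases mem_st'.1 hv with hv | hv
  · exact h hv
  · exact hv.1

/-- The marginal increase of `mn c K` at `b`. -/
noncomputable def marg (c : Finset V → ℤ) (K P : Finset V) (b : V) : ℤ :=
  mn c K (st K P (ix b + 1)) - mn c K (st K P (ix b))

theorem marg_nonneg (c : Finset V → ℤ) {K P : Finset V} (h : P ⊆ K) (b : V) :
    0 ≤ marg c K P b := by
  have : st K P (ix b) ⊆ st K P (ix b + 1) := by
    intro v hv
    rcases mem_st'.1 hv with hv | hv
    · exact mem_st'.2 (Or.inl hv)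
    · exact mem_st'.2 (Or.inr ⟨hv.1, Nat.lt_succ_of_lt hv.2⟩)
  have := mn_mono c this (st_subset h _)
  unfold marg
  linarith

theorem marg_zero (c : Finset V → ℤ) {K P : Finset V} {b : V} (hb : b ∉ K ∨ b ∈ P) :
    marg c K P b = 0 := by
  unfold marg
  rw [st_succ_not hb, sub_self]

theorem sum_marg (c : Finset V → ℤ) {K P : Finset V} (h : P ⊆ K) :
    ∑ b, marg c K P b = c K - mn c K P := by
  have h1 : ∑ b, marg c K P b = ∑ i : Fin (Fintype.card V),
      (fun k : ℕ => mn c K (st K P (k + 1)) - mn c K (st K P k)) (i : ℕ) := by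
    rw [← Equiv.sum_comp (Fintype.equivFin V)]
    rfl
  rw [h1, Fin.sum_univ_eq_sum_range
    (fun k : ℕ => mn c K (st K P (k + 1)) - mn c K (st K P k)),
    Finset.sum_range_sub (fun k => mn c K (st K P k))]
  have e1 : st K P (Fintype.card V) = K := by
    apply Subset.antisymm (st_subset h _)
    intro v hv
    exact mem_st'.2 (Or.inr ⟨hv, (Fintype.equivFin V v).2⟩)
  have e0 : st K P 0 = P := by
    ext v
    rw [mem_st']
    simp
  rw [e1, e0, mn_self]

theorem layer_aux {x : ℤ} (h0 : 0 ≤ x) {M : ℕ} (hM : x ≤ M) :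
    ∑ s ∈ range M, (if (s : ℤ) < x then (1 : ℤ) else 0) = x := by
  lift x to ℕ using h0
  rw [Finset.sum_boole]
  have : (range M).filter (fun s => ((s : ℕ) : ℤ) < (x : ℤ)) = range x := by
    ext s
    simp only [mem_filter, mem_range]
    constructor
    · rintro ⟨_, h⟩
      exact_mod_cast h
    · intro h
      constructor
      · have : x ≤ M := by exact_mod_cast hM
        omega
      · exact_mod_cast h
  rw [this, card_range]

theorem layer {f g : V → ℤ} (hf : ∀ a, 0 ≤ f a) (hg : ∀ a, 0 ≤ g a)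
    (h : ∀ s : ℕ, (univ.filter fun a => (s : ℤ) < f a).card ≤
      (univ.filter fun a => (s : ℤ) < g a).card) : ∑ a, f a ≤ ∑ a, g a := by
  set M : ℕ := (∑ a, f a + ∑ a, g a).toNat with hMdef
  have hMM : ∑ a, f a + ∑ a, g a ≤ (M : ℤ) := Int.self_le_toNat _
  have hfs : 0 ≤ ∑ a, f a := sum_nonneg fun a _ => hf a
  have hgs : 0 ≤ ∑ a, g a := sum_nonneg fun a _ => hg a
  have hfM : ∀ a, f a ≤ M := fun a => by
    have := single_le_sum (fun i _ => hf i) (mem_univ a)
    linarith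
  have hgM : ∀ a, g a ≤ M := fun a => by
    have := single_le_sum (fun i _ => hg i) (mem_univ a)
    linarith
  have ef : ∑ a, f a = ∑ s ∈ range M, ((univ.filter fun a => (s : ℤ) < f a).card : ℤ) := by
    rw [← sum_congr rfl fun a _ => layer_aux (hf a) (hfM a), sum_comm]
    exact sum_congr rfl fun s _ => by rw [Finset.sum_boole]
  have eg : ∑ a, g a = ∑ s ∈ range M, ((univ.filter fun a => (s : ℤ) < g a).card : ℤ) := by
    rw [← sum_congr rfl fun a _ => layer_aux (hg a) (hgM a), sum_comm]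
    exact sum_congr rfl fun s _ => by rw [Finset.sum_boole]
  rw [ef, eg]
  exact sum_le_sum fun s _ => by exact_mod_cast h s

theorem inter_opt {c : Finset V → ℤ} (hc : ∀ S T, c (S ∩ T) + c (S ∪ T) ≤ c S + c T)
    {P Q : V → Finset V} (hR : ∀ a Z, P a ⊆ Z → Z ⊆ Q a → c (P a) ≤ c Z)
    (hPQ : ∀ a, P a ⊆ Q a)
    (Z : Finset V) (M : Finset V) (hZ : ∀ z ∈ M, Z ⊆ Q z) :
    c (Z.filter fun b => ∀ z ∈ M, b ∈ P z) ≤ c Z := by
  induction M using Finset.induction_on with
  | empty => simp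
  | insert z M hz ih =>
    have ih' := ih fun z' hz' => hZ z' (mem_insert_of_mem hz')
    set Z1 := Z.filter fun b => ∀ z ∈ M, b ∈ P z with hZ1
    have e : (Z.filter fun b => ∀ z' ∈ insert z M, b ∈ P z') = Z1 ∩ P z := by
      ext b
      simp only [hZ1, mem_filter, mem_inter, mem_insert, forall_eq_or_imp]
      tauto
    rw [e]
    have h1 := hc Z1 (P z)
    have h2 : c (P z) ≤ c (Z1 ∪ P z) :=
      hR z _ subset_union_right (union_subset
        ((filter_subset _ _).trans (hZ z (mem_insert_self _ _))) (hPQ z))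
    linarith

/-- The key inequality. -/
theorem key {c : Finset V → ℤ} (hc : ∀ S T, c (S ∩ T) + c (S ∪ T) ≤ c S + c T)
    {Nm P Q S T : V → Finset V} (hPQ : ∀ a, P a ⊆ Q a)
    (hS : ∀ a b, b ∈ S a ↔ ∀ z ∈ Nm a, b ∈ P z)
    (hT : ∀ a b, b ∈ T a ↔ ∀ z ∈ Nm a, b ∈ Q z)
    (hR : ∀ a Z, P a ⊆ Z → Z ⊆ Q a → c (P a) ≤ c Z)
    (hC : ∀ b, ∀ U : Finset V, (∀ a ∈ U, b ∈ Q a ∧ b ∉ P a) →
      U.card ≤ (univ.filter fun a => b ∈ T a ∧ ∃ z ∈ Nm a, z ∈ U).card) :
    ∑ a, (c (Q a) - c (P a)) ≤ ∑ a, (c (T a) - c (S a)) := by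
  have hST : ∀ a, S a ⊆ T a := fun a b hb =>
    (hT a b).2 fun z hz => hPQ z ((hS a b).1 hb z hz)
  have hR' : ∀ a Z, S a ⊆ Z → Z ⊆ T a → c (S a) ≤ c Z := by
    intro a Z h1 h2
    have h := inter_opt hc hR hPQ Z (Nm a) fun z hz b hb => (hT a b).1 (h2 hb) z hz
    have e : (Z.filter fun b => ∀ z ∈ Nm a, b ∈ P z) = S a := by
      ext b
      rw [mem_filter, ← hS a b]
      exact ⟨fun h => h.2, fun h => ⟨h1 h, h⟩⟩
    rwa [e] at h
  have h1 : ∀ a, c (Q a) - c (P a) = ∑ b, marg c (Q a) (P a) b := fun a => by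
    rw [sum_marg c (hPQ a), mn_eq c (hPQ a) (hR a)]
  have h2 : ∀ a, c (T a) - c (S a) = ∑ b, marg c (T a) (S a) b := fun a => by
    rw [sum_marg c (hST a), mn_eq c (hST a) (hR' a)]
  rw [sum_congr rfl fun a _ => h1 a, sum_congr rfl fun a _ => h2 a, sum_comm,
    sum_comm (f := fun a b => marg c (T a) (S a) b)]
  refine sum_le_sum fun b _ => ?_
  refine layer (fun a => marg_nonneg c (hPQ a) b) (fun a => marg_nonneg c (hST a) b) ?_
  intro s
  refine (hC b (univ.filter fun a => (s : ℤ) < marg c (Q a) (P a) b) ?_).trans ?_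
  · intro a ha
    have ha' := (mem_filter.1 ha).2
    by_contra hcon
    have : marg c (Q a) (P a) b = 0 := by
      apply marg_zero
      by_contra h
      push Not at h
      exact hcon h
    rw [this] at ha'
    have : (0 : ℤ) ≤ (s : ℤ) := Int.natCast_nonneg s
    linarith
  · apply card_le_card
    intro a ha
    obtain ⟨hbT, z, hz, hzU⟩ := (mem_filter.1 ha).2
    have hz' := (mem_filter.1 hzU).2
    refine mem_filter.2 ⟨mem_univ _, hz'.trans_le ?_⟩
    have hbQ : b ∈ Q z := (hT a b).1 hbT z hz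
    have hTQ : T a ⊆ Q z := fun v hv => (hT a v).1 hv z hz
    unfold marg
    rw [st_succ_mem hbQ, st_succ_mem hbT]
    refine mn_marg hc hTQ (st_subset (hST a) _) ?_ (st_subset (hPQ z) _) hbT
    intro v hv
    rcases mem_st'.1 hv with hv | hv
    · exact mem_st'.2 (Or.inl ((hS a v).1 hv z hz))
    · exact mem_st'.2 (Or.inr ⟨hTQ hv.1, hv.2⟩)

end Vale.Agent.P038.H675
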