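import Vale.Agent.P038.Defs
import Vale.Agent.P038.H675.Key

/-!
# Comparison of two minimum cuts in an oriented graph
-/

namespace Vale.Agent.P038.H675

open Finset

variable {V : Type*} [Fintype V] [DecidableEq V]

/-- Equal or joined by an arc from `a` to `b`. -/
def adj (D : OGraph V) (a b : V) : Prop := a = b ∨ D.arc a b

open Classical in
/-- Closed out-neighbourhood of a set. -/
noncomputable def cl (D : OGraph V) (S : Finset V) : Finset V :=
  univ.filter fun z => ∃ y ∈ S, adj D y z

theorem mem_cl {D : OGraph V} {S : Finset V} {z : V} :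
    z ∈ cl D S ↔ ∃ y ∈ S, adj D y z := by
  simp [cl]

theorem adj_refl (D : OGraph V) (a : V) : adj D a a := Or.inl rfl

theorem adj_antisymm {D : OGraph V} {a b : V} (h : adj D a b) (h' : adj D b a) : a = b := by
  rcases h with h | h
  · exact h
  · rcases h' with h' | h'
    · exact h'.symm
    · exact absurd h' (D.asymm _ _ h)

theorem subset_cl (D : OGraph V) (S : Finset V) : S ⊆ cl D S := fun z hz =>
  mem_cl.2 ⟨z, hz, adj_refl D z⟩

theorem cl_mono (D : OGraph V) {S T : Finset V} (h : S ⊆ T) : cl D S ⊆ cl D T := fun z hz => by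
  obtain ⟨y, hy, hyz⟩ := mem_cl.1 hz
  exact mem_cl.2 ⟨y, h hy, hyz⟩

theorem cl_union (D : OGraph V) (S T : Finset V) : cl D (S ∪ T) = cl D S ∪ cl D T := by
  ext z
  simp only [mem_cl, mem_union]
  constructor
  · rintro ⟨y, hy | hy, h⟩
    · exact Or.inl ⟨y, hy, h⟩
    · exact Or.inr ⟨y, hy, h⟩
  · rintro (⟨y, hy, h⟩ | ⟨y, hy, h⟩)
    · exact ⟨y, Or.inl hy, h⟩
    · exact ⟨y, Or.inr hy, h⟩

/-- The size of the boundary of a set. -/
noncomputable def cc (D : OGraph V) (S : Finset V) : ℤ := ((cl D S).card : ℤ) - S.card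

theorem cc_submod (D : OGraph V) (S T : Finset V) :
    cc D (S ∩ T) + cc D (S ∪ T) ≤ cc D S + cc D T := by
  have h1 := card_union_add_card_inter S T
  have h2 := card_union_add_card_inter (cl D S) (cl D T)
  have h3 : (cl D (S ∩ T)).card ≤ (cl D S ∩ cl D T).card :=
    card_le_card (subset_inter (cl_mono D inter_subset_left) (cl_mono D inter_subset_right))
  unfold cc
  rw [cl_union]
  zify at h1 h2 h3
  linarith

/-- Feasible for the outer problem. -/
structure FII (D : OGraph V) (P Q : V → Finset V) : Prop where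
  p : ∀ a b, adj D a b → b ∈ P a
  q : ∀ a b, adj D a b → b ∈ Q a
  o : ∀ a b, a ≠ b → b ∈ P a → a ∈ Q b → False

/-- Feasible for the inner problem. -/
structure FI (D : OGraph V) (X Y : V → Finset V) : Prop where
  x : ∀ a, a ∈ X a
  y : ∀ a, a ∈ Y a
  o : ∀ a b, a ≠ b → b ∈ cl D (X a) → a ∈ cl D (Y b) → False

/-- The cost of a pair of families. -/
noncomputable def cost (D : OGraph V) (P Q : V → Finset V) : ℤ :=
  ∑ a, cc D (P a) + ∑ a, cc D (Q a)

theorem sum_upd (c : Finset V → ℤ) (P : V → Finset V) (a : V) (Z : Finset V) :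
    ∑ x, c (Function.update P a Z x) = ∑ x, c (P x) - c (P a) + c Z := by
  rw [← Finset.add_sum_erase _ _ (mem_univ a),
    ← Finset.add_sum_erase univ (fun x => c (P x)) (mem_univ a)]
  have : ∑ x ∈ univ.erase a, c (Function.update P a Z x) = ∑ x ∈ univ.erase a, c (P x) :=
    sum_congr rfl fun x hx => by rw [Function.update_of_ne (ne_of_mem_erase hx)]
  rw [this, Function.update_self]
  ring

theorem sum_card_eq (F : V → Finset V) :
    ∑ a, ((F a).card : ℤ) = ∑ a, ∑ b, if b ∈ F a then (1 : ℤ) else 0 := by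
  refine sum_congr rfl fun a _ => ?_
  rw [Finset.sum_boole, Finset.filter_mem_eq_inter, univ_inter]

theorem sum_card_eq' (F : V → Finset V) :
    ∑ a, ((F a).card : ℤ) = ∑ a, ∑ b, if a ∈ F b then (1 : ℤ) else 0 := by
  rw [sum_card_eq, sum_comm]

theorem ite_add_le {p q : Prop} [Decidable p] [Decidable q] (h : ¬ (p ∧ q)) :
    (if p then (1 : ℤ) else 0) + (if q then (1 : ℤ) else 0) ≤ 1 := by
  by_cases hp : p
  · by_cases hq : q
    · exact absurd ⟨hp, hq⟩ h
    · simp [hp, hq]
  · by_cases hq : q
    · simp [hp, hq]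
    · simp [hp, hq]

theorem le_ite_add {p q : Prop} [Decidable p] [Decidable q] (h : p ∨ q) :
    1 ≤ (if p then (1 : ℤ) else 0) + (if q then (1 : ℤ) else 0) := by
  by_cases hp : p
  · by_cases hq : q
    · simp [hp, hq]
    · simp [hp, hq]
  · by_cases hq : q
    · simp [hp, hq]
    · exact absurd h (not_or.2 ⟨hp, hq⟩)

open Classical in
/-- The comparison: from a minimiser of the outer problem we get a feasible pair of the inner
problem that is not more expensive. -/
theorem m12 {D : OGraph V} {P Q : V → Finset V} (h : FII D P Q)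
    (hmin : ∀ P' Q', FII D P' Q' → cost D P Q ≤ cost D P' Q') :
    ∃ X Y, FI D X Y ∧ cost D X Y ≤ cost D P Q := by
  set H : V → Finset V := fun a => univ.filter fun b => a = b ∨ a ∉ Q b with hH
  set Nm : V → Finset V := fun a => univ.filter fun z => adj D z a with hNm
  set S : V → Finset V := fun a => univ.filter fun b => ∀ z ∈ Nm a, b ∈ P z with hS
  set T : V → Finset V := fun a => univ.filter fun b => ∀ z ∈ Nm a, b ∈ H z with hT
  set Y : V → Finset V := fun a => univ.filter fun b => ∀ z ∈ Nm a, b ∈ Q z with hY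
  have mH : ∀ a b, b ∈ H a ↔ (a = b ∨ a ∉ Q b) := fun a b => by simp [hH]
  have mN : ∀ a z, z ∈ Nm a ↔ adj D z a := fun a z => by simp [hNm]
  have mS : ∀ a b, b ∈ S a ↔ ∀ z ∈ Nm a, b ∈ P z := fun a b => by simp [hS]
  have mT : ∀ a b, b ∈ T a ↔ ∀ z ∈ Nm a, b ∈ H z := fun a b => by simp [hT]
  have mY : ∀ a b, b ∈ Y a ↔ ∀ z ∈ Nm a, b ∈ Q z := fun a b => by simp [hY]
  have hPH : ∀ a, P a ⊆ H a := by
    intro a b hb
    rw [mH]
    by_cases hab : a = b
    · exact Or.inl hab
    · exact Or.inr fun hq => h.o a b hab hb hq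
  have hST : ∀ a, S a ⊆ T a := fun a b hb =>
    (mT a b).2 fun z hz => hPH z ((mS a b).1 hb z hz)
  have hR : ∀ a Z, P a ⊆ Z → Z ⊆ H a → cc D (P a) ≤ cc D Z := by
    intro a Z h1 h2
    have hf : FII D (Function.update P a Z) Q := by
      refine ⟨?_, h.q, ?_⟩
      · intro a' b hab
        by_cases e : a' = a
        · subst e
          rw [Function.update_self]
          exact h1 (h.p _ _ hab)
        · rw [Function.update_of_ne e]
          exact h.p _ _ hab
      · intro a' b hab hb hq
        by_cases e : a' = a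
        · subst e
          rw [Function.update_self] at hb
          rcases (mH _ _).1 (h2 hb) with h' | h'
          · exact hab h'
          · exact h' hq
        · rw [Function.update_of_ne e] at hb
          exact h.o _ _ hab hb hq
    have h3 := hmin _ _ hf
    unfold cost at h3
    rw [sum_upd] at h3
    linarith
  have hC : ∀ b, ∀ U : Finset V, (∀ a ∈ U, b ∈ H a ∧ b ∉ P a) →
      U.card ≤ (univ.filter fun a => b ∈ T a ∧ ∃ z ∈ Nm a, z ∈ U).card := by
    intro b U hU
    have hf : FII D P (Function.update Q b (Q b ∪ U)) := by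
      refine ⟨h.p, ?_, ?_⟩
      · intro a b' hab
        by_cases e : a = b
        · subst e
          rw [Function.update_self]
          exact mem_union_left _ (h.q _ _ hab)
        · rw [Function.update_of_ne e]
          exact h.q _ _ hab
      · intro a b' hab hb hq
        by_cases e : b' = b
        · subst e
          rw [Function.update_self] at hq
          rcases mem_union.1 hq with hq | hq
          · exact h.o _ _ hab hb hq
          · exact (hU _ hq).2 hb
        · rw [Function.update_of_ne e] at hq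
          exact h.o _ _ hab hb hq
    have h3 := hmin _ _ hf
    unfold cost at h3
    rw [sum_upd] at h3
    have h4 : cc D (Q b) ≤ cc D (Q b ∪ U) := by linarith
    have hdis : Disjoint (Q b) U := by
      rw [Finset.disjoint_left]
      intro a haQ haU
      rcases (mH _ _).1 (hU a haU).1 with h' | h'
      · subst h'
        exact (hU _ haU).2 (h.p _ _ (adj_refl D _))
      · exact h' haQ
    have h5 : (Q b ∪ U).card = (Q b).card + U.card := card_union_of_disjoint hdis
    have h6 : (cl D (Q b ∪ U) \ cl D (Q b)).card + (cl D (Q b)).card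
        = (cl D (Q b ∪ U)).card :=
      card_sdiff_add_card_eq_card (cl_mono D subset_union_left)
    have h7 : cl D (Q b ∪ U) \ cl D (Q b) ⊆
        univ.filter fun a => b ∈ T a ∧ ∃ z ∈ Nm a, z ∈ U := by
      intro a ha
      obtain ⟨ha1, ha2⟩ := mem_sdiff.1 ha
      refine mem_filter.2 ⟨mem_univ _, ?_, ?_⟩
      · rw [mT]
        intro z hz
        rw [mH]
        refine Or.inr fun hzQ => ha2 (mem_cl.2 ⟨z, hzQ, (mN _ _).1 hz⟩)
      · obtain ⟨y, hy, hya⟩ := mem_cl.1 ha1
        refine ⟨y, (mN _ _).2 hya, ?_⟩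
        rcases mem_union.1 hy with hy | hy
        · exact absurd (mem_cl.2 ⟨y, hy, hya⟩) ha2
        · exact hy
    have h8 := card_le_card h7
    unfold cc at h4
    zify at h5 h6 h8 ⊢
    linarith
  have hkey := key (cc_submod D) hPH mS mT hR hC
  -- the conflict lemma
  have hdel : ∀ a b, a ≠ b → b ∈ cl D (T a) → a ∈ cl D (Y b) → False := by
    intro a b hab hb ha
    obtain ⟨x, hx, hxb⟩ := mem_cl.1 hb
    obtain ⟨y, hy, hya⟩ := mem_cl.1 ha
    have h1 := (mT a x).1 hx y ((mN _ _).2 hya)
    have h2 := (mY b y).1 hy x ((mN _ _).2 hxb)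
    have hyx : y = x := by
      rcases (mH _ _).1 h1 with h' | h'
      · exact h'
      · exact absurd h2 h'
    subst hyx
    have h3 := (mT a y).1 hx a ((mN _ _).2 (adj_refl D a))
    have hay : a = y := by
      rcases (mH _ _).1 h3 with h' | h'
      · exact h'
      · exact absurd (h.q _ _ hya) h'
    subst hay
    have h4 := (mY b a).1 hy b ((mN _ _).2 (adj_refl D b))
    exact h.o a b hab (h.p _ _ hxb) h4
  refine ⟨S, Y, ⟨?_, ?_, ?_⟩, ?_⟩
  · intro a
    rw [mS]
    intro z hz
    exact h.p _ _ ((mN _ _).1 hz)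
  · intro a
    rw [mY]
    intro z hz
    exact h.q _ _ ((mN _ _).1 hz)
  · intro a b hab hb ha
    exact hdel a b hab (cl_mono D (hST a) hb) ha
  · have hpair : ∀ a b,
        ((if a ∈ cl D (Y b) then (1 : ℤ) else 0) - (if a ∈ Y b then (1 : ℤ) else 0)
          + (if b ∈ cl D (T a) then (1 : ℤ) else 0) - (if b ∈ T a then (1 : ℤ) else 0)) ≤
        ((if a ∈ cl D (Q b) then (1 : ℤ) else 0) - (if a ∈ Q b then (1 : ℤ) else 0)
          + (if b ∈ cl D (H a) then (1 : ℤ) else 0) - (if b ∈ H a then (1 : ℤ) else 0)) := by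
      intro a b
      by_cases hab : a = b
      · subst hab
        have e1 : a ∈ Y a := (mY a a).2 fun z hz => h.q _ _ ((mN _ _).1 hz)
        have e2 : a ∈ T a := (mT a a).2 fun z hz => hPH z (h.p _ _ ((mN _ _).1 hz))
        have e3 : a ∈ Q a := h.q _ _ (adj_refl D a)
        have e4 : a ∈ H a := (mH a a).2 (Or.inl rfl)
        simp [e1, e2, e3, e4, subset_cl D _ e1, subset_cl D _ e2, subset_cl D _ e3,
          subset_cl D _ e4]
      · have f1 : ¬ (b ∈ cl D (T a) ∧ a ∈ cl D (Y b)) := fun hh => hdel a b hab hh.1 hh.2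
        have f2 : b ∈ T a ∨ a ∈ cl D (Q b) := by
          by_contra hh
          push Not at hh
          apply hh.1
          rw [mT]
          intro z hz
          rw [mH]
          exact Or.inr fun hzQ => hh.2 (mem_cl.2 ⟨z, hzQ, (mN _ _).1 hz⟩)
        have f3 : a ∈ Y b ∨ b ∈ cl D (H a) := by
          by_contra hh
          push Not at hh
          apply hh.1
          rw [mY]
          intro z hz
          by_contra hzQ
          exact hh.2 (mem_cl.2 ⟨z, (mH _ _).2 (Or.inr hzQ), (mN _ _).1 hz⟩)
        have f4 : ¬ (a ∈ Q b ∧ b ∈ H a) := by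
          rintro ⟨g1, g2⟩
          rcases (mH _ _).1 g2 with h' | h'
          · exact hab h'
          · exact h' g1
        have i1 := ite_add_le f1
        have i2 := le_ite_add f2
        have i3 := le_ite_add f3
        have i4 := ite_add_le f4
        linarith
    have hsum : ∑ a, ∑ b,
        ((if a ∈ cl D (Y b) then (1 : ℤ) else 0) - (if a ∈ Y b then (1 : ℤ) else 0)
          + (if b ∈ cl D (T a) then (1 : ℤ) else 0) - (if b ∈ T a then (1 : ℤ) else 0)) ≤
        ∑ a, ∑ b,
        ((if a ∈ cl D (Q b) then (1 : ℤ) else 0) - (if a ∈ Q b then (1 : ℤ) else 0)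
          + (if b ∈ cl D (H a) then (1 : ℤ) else 0) - (if b ∈ H a then (1 : ℤ) else 0)) :=
      sum_le_sum fun a _ => sum_le_sum fun b _ => hpair a b
    simp only [sum_sub_distrib, sum_add_distrib] at hsum
    rw [← sum_card_eq' fun b => cl D (Y b), ← sum_card_eq' Y, ← sum_card_eq fun a => cl D (T a),
      ← sum_card_eq T, ← sum_card_eq' fun b => cl D (Q b), ← sum_card_eq' Q,
      ← sum_card_eq fun a => cl D (H a), ← sum_card_eq H] at hsum
    simp only [sum_sub_distrib] at hkey
    unfold cost
    simp only [cc, sum_sub_distrib] at hkey ⊢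
    linarith

end Vale.Agent.P038.H675
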