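import Vale.Agent.P038.H675.Cut

/-!
# Arc-minimal counterexamples: second boundaries of sets are smaller than first boundaries
-/

namespace Vale.Agent.P038.H675

open Finset

variable {V : Type*} [Fintype V] [DecidableEq V]

open Classical in
/-- Delete the arcs from `X` to the vertices outside `X ∪ T`. -/
def del (D : OGraph V) (X T : Finset V) : OGraph V where
  arc y z := D.arc y z ∧ ¬ (y ∈ X ∧ z ∉ X ∧ z ∉ T)
  loopless v h := D.loopless v h.1
  asymm u v h h' := D.asymm u v h.1 h'.1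

/-- A counterexample. -/
def CE (D : OGraph V) : Prop := ∀ v, (N2 D v).card < (N1 D v).card

theorem del_ce {D : OGraph V} (hD : CE D) {X T : Finset V} (hXT : Disjoint X T)
    (h : ∀ U : Finset V, U ⊆ cl D X \ X → Disjoint U T →
      2 * U.card ≤ (cl D U \ (cl D T ∪ X)).card) : CE (del D X T) := by
  intro v
  have hv := hD v
  by_cases hvX : v ∈ X
  · set U : Finset V := N1 D v \ (X ∪ T) with hU
    have hU1 : U ⊆ cl D X \ X := by
      intro z hz
      obtain ⟨hz1, hz2⟩ := mem_sdiff.1 hz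
      rw [mem_union, not_or] at hz2
      exact mem_sdiff.2 ⟨mem_cl.2 ⟨v, hvX, Or.inr (mem_N1.1 hz1)⟩, hz2.1⟩
    have hU2 : Disjoint U T := by
      rw [Finset.disjoint_left]
      intro z hz hzT
      exact (mem_sdiff.1 hz).2 (mem_union_right _ hzT)
    have hE := h U hU1 hU2
    set E : Finset V := cl D U \ (cl D T ∪ X) with hEdef
    have e1 : N1 (del D X T) v = N1 D v \ U := by
      ext z
      rw [mem_N1, mem_sdiff, hU, mem_sdiff, mem_union, mem_N1]
      simp only [del]
      tauto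
    have c1 : (N1 (del D X T) v).card + U.card = (N1 D v).card := by
      rw [e1]
      exact card_sdiff_add_card_eq_card sdiff_subset
    have e2 : N2 (del D X T) v ⊆ (N2 D v ∪ U) \ E := by
      intro z hz
      obtain ⟨hzv, hnz, u, ⟨hvu, hvu'⟩, ⟨huz, huz'⟩⟩ := mem_N2.1 hz
      rw [mem_sdiff, mem_union]
      constructor
      · by_cases hvz : D.arc v z
        · right
          rw [hU, mem_sdiff, mem_N1, mem_union]
          refine ⟨hvz, fun hh => hnz ⟨hvz, fun h3 => ?_⟩⟩
          rcases hh with hh | hh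
          · exact h3.2.1 hh
          · exact h3.2.2 hh
        · left
          exact mem_N2.2 ⟨hzv, hvz, u, hvu, huz⟩
      · intro hzE
        obtain ⟨-, hzE2⟩ := mem_sdiff.1 hzE
        rw [mem_union, not_or] at hzE2
        by_cases huX : u ∈ X
        · apply huz'
          refine ⟨huX, hzE2.2, fun hzT => hzE2.1 (subset_cl D T hzT)⟩
        · by_cases huT : u ∈ T
          · exact hzE2.1 (mem_cl.2 ⟨u, huT, Or.inr huz⟩)
          · exact hvu' ⟨hvX, huX, huT⟩
    have e3 : E ⊆ N2 D v ∪ U := by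
      intro z hz
      obtain ⟨hz1, hz2⟩ := mem_sdiff.1 hz
      rw [mem_union, not_or] at hz2
      rw [mem_union]
      by_cases hzU : z ∈ U
      · exact Or.inr hzU
      · left
        obtain ⟨y, hyU, hyz⟩ := mem_cl.1 hz1
        have hyz' : D.arc y z := by
          rcases hyz with hyz | hyz
          · subst hyz
            exact absurd hyU hzU
          · exact hyz
        have hvy : D.arc v y := mem_N1.1 (mem_sdiff.1 hyU).1
        refine mem_N2.2 ⟨?_, ?_, y, hvy, hyz'⟩
        · rintro rfl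
          exact hz2.2 hvX
        · intro hvz
          apply hzU
          rw [hU, mem_sdiff, mem_N1, mem_union]
          refine ⟨hvz, fun hh => ?_⟩
          rcases hh with hh | hh
          · exact hz2.2 hh
          · exact hz2.1 (subset_cl D T hh)
    have c2 : (N2 (del D X T) v).card + E.card ≤ (N2 D v).card + U.card := by
      have g1 := card_le_card e2
      have g2 : ((N2 D v ∪ U) \ E).card + E.card = (N2 D v ∪ U).card :=
        card_sdiff_add_card_eq_card e3
      have g3 := card_union_le (N2 D v) U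
      omega
    omega
  · have e1 : N1 (del D X T) v = N1 D v := by
      ext z
      rw [mem_N1, mem_N1]
      simp only [del]
      tauto
    have e2 : N2 (del D X T) v ⊆ N2 D v := by
      intro z hz
      obtain ⟨hzv, hnz, u, ⟨hvu, hvu'⟩, ⟨huz, huz'⟩⟩ := mem_N2.1 hz
      refine mem_N2.2 ⟨hzv, fun hvz => hnz ⟨hvz, fun h3 => hvX h3.1⟩, u, hvu, huz⟩
    rw [e1]
    exact (card_le_card e2).trans_lt hv

/-- In an arc-minimal counterexample the second boundary of a set is smaller than the first. -/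
theorem grow {D : OGraph V} (hD : CE D)
    (hmin : ∀ D' : OGraph V, CE D' → (∀ u v, D'.arc u v → D.arc u v) →
      ∀ u v, D.arc u v → D'.arc u v)
    {X : Finset V} (hX : cl D X ≠ X) : cc D (cl D X) < cc D X := by
  by_contra hcon
  push Not at hcon
  set L : Finset V := cl D X \ X with hL
  have hLne : L.Nonempty := by
    rw [Finset.nonempty_iff_ne_empty]
    intro h0
    apply hX
    exact Subset.antisymm (sdiff_eq_empty_iff_subset.1 h0) (subset_cl D X)
  have hLX : Disjoint X L := disjoint_sdiff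
  set d : Finset V → ℤ := fun T => ((cl D T \ X).card : ℤ) - 2 * T.card with hd
  obtain ⟨T, hT, hTmin⟩ := Finset.exists_min_image (L.powerset.erase L) d
    ⟨∅, by
      rw [mem_erase, mem_powerset]
      exact ⟨fun h => by rw [← h] at hLne; exact not_nonempty_empty hLne, empty_subset _⟩⟩
  obtain ⟨hTL, hTsub⟩ := mem_erase.1 hT
  rw [mem_powerset] at hTsub
  have hd0 : d T ≤ 0 := by
    have h0 := hTmin ∅ (by
      rw [mem_erase, mem_powerset]
      exact ⟨fun h => by rw [← h] at hLne; exact not_nonempty_empty hLne, empty_subset _⟩)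
    have : d ∅ = 0 := by
      have : cl D ∅ = ∅ := by
        ext z
        simp [mem_cl]
      simp [hd, this]
    linarith
  -- the whole boundary
  have hdL : 0 ≤ d L := by
    have e : cl D (cl D X) = X ∪ (cl D L \ X) := by
      ext z
      rw [mem_union, mem_sdiff, mem_cl, mem_cl]
      constructor
      · rintro ⟨y, hy, hyz⟩
        by_cases hzX : z ∈ X
        · exact Or.inl hzX
        · right
          refine ⟨?_, hzX⟩
          by_cases hyX : y ∈ X
          · exact ⟨z, mem_sdiff.2 ⟨mem_cl.2 ⟨y, hyX, hyz⟩, hzX⟩, adj_refl D z⟩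
          · exact ⟨y, mem_sdiff.2 ⟨hy, hyX⟩, hyz⟩
      · rintro (hz | ⟨⟨y, hy, hyz⟩, -⟩)
        · exact ⟨z, subset_cl D X hz, adj_refl D z⟩
        · exact ⟨y, (mem_sdiff.1 hy).1, hyz⟩
    have h1 : (cl D (cl D X)).card = X.card + (cl D L \ X).card := by
      rw [e, card_union_of_disjoint disjoint_sdiff]
    have h2 : L.card + X.card = (cl D X).card := card_sdiff_add_card_eq_card (subset_cl D X)
    have h3 : d L = ((cl D L \ X).card : ℤ) - 2 * L.card := rfl
    unfold cc at hcon
    rw [h3]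
    zify at h1 h2
    linarith
  have hmono : ∀ T', T' ⊆ L → d T ≤ d T' := by
    intro T' hT'
    by_cases e : T' = L
    · rw [e]
      linarith
    · exact hTmin T' (mem_erase.2 ⟨e, mem_powerset.2 hT'⟩)
  have hXT : Disjoint X T := disjoint_of_subset_right hTsub hLX
  have hce : CE (del D X T) := by
    apply del_ce hD hXT
    intro U hU hUT
    have h1 := hmono (T ∪ U) (union_subset hTsub hU)
    have h2 : (T ∪ U).card = T.card + U.card := card_union_of_disjoint hUT.symm
    have h3 : cl D (T ∪ U) \ X = (cl D T \ X) ∪ (cl D U \ (cl D T ∪ X)) := by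
      ext z
      rw [cl_union]
      simp only [mem_union, mem_sdiff]
      tauto
    have h4 : (cl D (T ∪ U) \ X).card ≤ (cl D T \ X).card + (cl D U \ (cl D T ∪ X)).card := by
      rw [h3]
      exact card_union_le _ _
    have h5 : ((cl D T \ X).card : ℤ) - 2 * T.card ≤
        ((cl D (T ∪ U) \ X).card : ℤ) - 2 * (T ∪ U).card := h1
    zify at h2 h4 ⊢
    linarith
  have hall := hmin (del D X T) hce fun u v h => h.1
  -- an arc from `X` to `L \ T`
  have hex : ∃ z, z ∈ L ∧ z ∉ T := by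
    by_contra hno
    push Not at hno
    exact hTL (Subset.antisymm hTsub fun z hz => hno z hz)
  obtain ⟨z, hzL, hzT⟩ := hex
  obtain ⟨hz1, hz2⟩ := mem_sdiff.1 hzL
  obtain ⟨y, hyX, hyz⟩ := mem_cl.1 hz1
  have hyz' : D.arc y z := by
    rcases hyz with hyz | hyz
    · subst hyz
      exact absurd hyX hz2
    · exact hyz
  exact (hall y z hyz').2 ⟨hyX, hz2, hzT⟩

theorem exists_minimal_ce (h : ∃ D : OGraph V, CE D) :
    ∃ D : OGraph V, CE D ∧ ∀ D' : OGraph V, CE D' → (∀ u v, D'.arc u v → D.arc u v) →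
      ∀ u v, D.arc u v → D'.arc u v := by
  classical
  have hn : ∃ n : ℕ, ∃ D : OGraph V, CE D ∧ ∑ v, (N1 D v).card = n := by
    obtain ⟨D, hD⟩ := h
    exact ⟨_, D, hD, rfl⟩
  obtain ⟨D, hD, hDn⟩ := Nat.find_spec hn
  refine ⟨D, hD, fun D' hD' hsub u v huv => ?_⟩
  have h1 : Nat.find hn ≤ ∑ v, (N1 D' v).card := Nat.find_min' hn ⟨D', hD', rfl⟩
  have hs : ∀ x, N1 D' x ⊆ N1 D x := fun x z hz => mem_N1.2 (hsub _ _ (mem_N1.1 hz))
  by_contra hcon
  have hlt : ∑ v, (N1 D' v).card < ∑ v, (N1 D v).card := by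
    apply Finset.sum_lt_sum (fun x _ => card_le_card (hs x))
    refine ⟨u, mem_univ _, card_lt_card ⟨hs u, fun hh => hcon ?_⟩⟩
    exact mem_N1.1 (hh (mem_N1.2 huv))
  omega

open Classical in
/-- **Seymour's second neighbourhood conjecture.** -/
theorem seymour_aux [Nonempty V] (D₀ : OGraph V) : ∃ v, (N1 D₀ v).card ≤ (N2 D₀ v).card := by
  by_contra hcon
  push Not at hcon
  obtain ⟨D, hD, hmin⟩ := exists_minimal_ce ⟨D₀, hcon⟩
  -- minimisers
  obtain ⟨⟨X, Y⟩, hXY, hXYmin⟩ := Finset.exists_min_image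
    (univ.filter fun p : (V → Finset V) × (V → Finset V) => FI D p.1 p.2)
    (fun p => cost D p.1 p.2) ⟨(fun a => {a}, fun a => {a}), by
      refine mem_filter.2 ⟨mem_univ _, ?_, ?_, ?_⟩
      · intro a; simp
      · intro a; simp
      · intro a b hab hb ha
        obtain ⟨x, hx, hxb⟩ := mem_cl.1 hb
        obtain ⟨y, hy, hya⟩ := mem_cl.1 ha
        rw [mem_singleton] at hx hy
        subst hx hy
        exact hab (adj_antisymm hxb hya)⟩
  have hFI : FI D X Y := (mem_filter.1 hXY).2
  have hclF : FII D (fun a => cl D (X a)) (fun a => cl D (Y a)) :=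
    ⟨fun a b h => mem_cl.2 ⟨a, hFI.x a, h⟩, fun a b h => mem_cl.2 ⟨a, hFI.y a, h⟩, hFI.o⟩
  obtain ⟨⟨P, Q⟩, hPQ, hPQmin⟩ := Finset.exists_min_image
    (univ.filter fun p : (V → Finset V) × (V → Finset V) => FII D p.1 p.2)
    (fun p => cost D p.1 p.2) ⟨(fun a => cl D (X a), fun a => cl D (Y a)),
      mem_filter.2 ⟨mem_univ _, hclF⟩⟩
  have hFII : FII D P Q := (mem_filter.1 hPQ).2
  obtain ⟨X', Y', hF', hle⟩ := m12 hFII fun P' Q' h' =>
    hPQmin (P', Q') (mem_filter.2 ⟨mem_univ _, h'⟩)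
  have h1 : cost D X Y ≤ cost D X' Y' := hXYmin (X', Y') (mem_filter.2 ⟨mem_univ _, hF'⟩)
  have h2 : cost D P Q ≤ cost D (fun a => cl D (X a)) (fun a => cl D (Y a)) :=
    hPQmin (_, _) (mem_filter.2 ⟨mem_univ _, hclF⟩)
  have h3 : cost D X Y ≤ cost D (fun a => cl D (X a)) (fun a => cl D (Y a)) := by linarith
  have hg : ∀ S, cc D (cl D S) ≤ cc D S := by
    intro S
    by_cases e : cl D S = S
    · rw [e]
    · exact (grow hD hmin e).le
  unfold cost at h3
  have hXle : ∑ a, cc D (cl D (X a)) ≤ ∑ a, cc D (X a) := sum_le_sum fun a _ => hg _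
  have hYle : ∑ a, cc D (cl D (Y a)) ≤ ∑ a, cc D (Y a) := sum_le_sum fun a _ => hg _
  have hXc : ∀ a, cl D (X a) = X a := by
    by_contra hno
    push Not at hno
    obtain ⟨a, ha⟩ := hno
    have : ∑ a, cc D (cl D (X a)) < ∑ a, cc D (X a) :=
      sum_lt_sum (fun a _ => hg _) ⟨a, mem_univ _, grow hD hmin ha⟩
    linarith
  have hYc : ∀ a, cl D (Y a) = Y a := by
    by_contra hno
    push Not at hno
    obtain ⟨a, ha⟩ := hno
    have : ∑ a, cc D (cl D (Y a)) < ∑ a, cc D (Y a) :=
      sum_lt_sum (fun a _ => hg _) ⟨a, mem_univ _, grow hD hmin ha⟩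
    linarith
  -- a smallest closed set
  obtain ⟨C, hC, hCmin⟩ := Finset.exists_min_image
    (univ.filter fun C : Finset V => C.Nonempty ∧ cl D C ⊆ C) (fun C => C.card)
    ⟨univ, mem_filter.2 ⟨mem_univ _, univ_nonempty, subset_univ _⟩⟩
  obtain ⟨⟨a, haC⟩, hCc⟩ := (mem_filter.1 hC).2
  have hpos : 0 < (N1 D a).card := lt_of_le_of_lt (Nat.zero_le _) (hD a)
  obtain ⟨b, hb⟩ := card_pos.1 hpos
  have hab : D.arc a b := mem_N1.1 hb
  have hbC : b ∈ C := hCc (mem_cl.2 ⟨a, haC, Or.inr hab⟩)
  have hYC : Y b ∩ C = C := by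
    have hcl : cl D (Y b ∩ C) ⊆ Y b ∩ C := by
      refine subset_inter ((cl_mono D inter_subset_left).trans (hYc b).subset)
        ((cl_mono D inter_subset_right).trans hCc)
    have h5 := hCmin (Y b ∩ C) (mem_filter.2 ⟨mem_univ _, ⟨b, mem_inter.2 ⟨hFI.y b, hbC⟩⟩, hcl⟩)
    exact eq_of_subset_of_card_le inter_subset_right h5
  have haY : a ∈ Y b := by
    have : a ∈ Y b ∩ C := by rw [hYC]; exact haC
    exact (mem_inter.1 this).1
  refine hFI.o a b ?_ (mem_cl.2 ⟨a, hFI.x a, Or.inr hab⟩) (subset_cl D _ haY)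
  rintro rfl
  exact D.loopless _ hab

end Vale.Agent.P038.H675
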